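import Vale.Agent.P287D.Fg.Gau
import Vale.Agent.P287D.Hd.Cm

/-!
# P287D, row FU: functions with a transcendental residue
-/

open Set
open Vale.Agent.P297Z Vale.Agent.P287D.Hd Vale.Agent.P287D.Cb

noncomputable section

namespace Vale.Agent.P287D.Gp

variable {L K : Type} [Field L] [Field K] [Algebra ℂ K] [Algebra L K] {P : Pl K} {n : ℕ}

theorem not_med {z : K} (h : IsAlgebraic L z) : ¬ Med L P z := fun m => by
  obtain ⟨p, p0, e⟩ := h
  obtain ⟨c, u, c0, k, -, u0, -⟩ := m.gauss p0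
  rw [e, eq_comm, mul_eq_zero, map_eq_zero] at k
  exact u0 (by rw [k.resolve_left c0, rd_zero'])

theorem exists_medf [Algebra ℂ L] [IsScalarTower ℂ L K] {Q : Pl L} (hL : FF L n)
    (hK : FF K (n + 1)) (l : Ov L P Q) : ∃ f : K, Med L P f := by
  rcases n with _ | n
  · exact (no_pl hL Q).elim
  by_contra h
  let _ := l.κ.toAlgebra
  have r : ∀ x, l.κ x ∈ Rs L P := fun x => by
    obtain ⟨f, hf, rfl⟩ := rd_surj x
    exact mem_Rs.2 ⟨f, (l f).1 hf, l.isRd f hf⟩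
  have : IsScalarTower ℂ Q.κ P.κ := .of_algebraMap_eq fun c => by
    rw [← rd_const, ← rd_const, IsScalarTower.algebraMap_apply ℂ L K]
    exact (l.isRd _ (Q.con c)).symm
  have : Algebra.IsAlgebraic Q.κ P.κ := ⟨fun a => by
    obtain ⟨f, hf, rfl⟩ := rd_surj a
    have a : IsAlgebraic (Rs L P) (P.rd f) := by_contra fun t => h ⟨f, hf, t⟩
    refine a.of_ringHom_of_comp_eq (l.κ.codRestrict _ r) (RingHom.id _) ?_ (fun _ _ e => e) rfl
    rintro ⟨x, hx⟩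
    obtain ⟨f, hf, rfl⟩ := mem_Rs.1 hx
    exact ⟨Q.rd f, Subtype.ext (l.isRd f ((l f).2 hf))⟩⟩
  have e := trdeg_add_eq ℂ Q.κ (A := P.κ)
  rw [Gm.trdeg_κ Q hL, Gm.trdeg_κ P hK, trdeg_eq_zero, add_zero] at e
  exact absurd (Nat.cast_injective e) (by omega)

variable {E F : Type} [Field E] [Field F] [Algebra ℂ F] [Algebra L E] [Algebra E F] [Algebra L F]
  [IsScalarTower L E F] {S : Pl F}

theorem rs_le (S : Pl F) : Rs L S ≤ Rs E S := fun x hx => by
  obtain ⟨f, f1, f2⟩ := mem_Rs.1 hx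
  rw [IsScalarTower.algebraMap_apply L E F] at f1 f2
  exact mem_Rs.2 ⟨_, f1, f2⟩

theorem med_down {z : F} (m : Med E S z) : Med L S z :=
  ⟨m.1, fun a => m.2 (a.ringHom_of_comp_eq (Subfield.inclusion (rs_le S)) (RingHom.id _)
    (Subfield.inclusion (rs_le S)).injective rfl)⟩

theorem alg_trans {M : Type} [Field M] {A B : Subfield M} (s : A ≤ B)
    (k : ∀ x ∈ B, IsAlgebraic A x) {a : M} (h : IsAlgebraic B a) : IsAlgebraic A a := by
  let _ := (Subfield.inclusion s).toAlgebra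
  have : IsScalarTower A B M := .of_algebraMap_eq fun _ => rfl
  have : Algebra.IsAlgebraic A B := ⟨fun x =>
    (isAlgebraic_algebraMap_iff (algebraMap B M).injective).1 (k _ x.2)⟩
  exact h.restrictScalars _

theorem rs_alg [Algebra.IsAlgebraic L E] {a : S.κ} (h : IsAlgebraic (Rs E S) a) :
    IsAlgebraic (Rs L S) a := by
  refine alg_trans (rs_le S) (fun x hx => ?_) h
  obtain ⟨f, f1, e⟩ := mem_Rs.1 hx
  rw [e]
  exact by_contra fun t => not_med (Algebra.IsAlgebraic.isAlgebraic (R := L) f).algebraMap ⟨f1, t⟩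

theorem med_ext [Algebra.IsAlgebraic L E] {z : F} (m : Med L S z) : Med E S z :=
  ⟨m.1, fun a => m.2 (rs_alg a)⟩

variable [Algebra K F] [IsScalarTower L K F]

theorem rs_map (o : Ov K S P) {a : S.κ} : a ∈ Rs L S ↔ ∃ b ∈ Rs L P, o.κ b = a := by
  constructor
  · intro h
    obtain ⟨f, f1, rfl⟩ := mem_Rs.1 h
    rw [IsScalarTower.algebraMap_apply L K F] at f1 ⊢
    exact ⟨_, mem_Rs.2 ⟨f, (o _).2 f1, rfl⟩, o.isRd _ ((o _).2 f1)⟩
  · rintro ⟨b, h, rfl⟩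
    obtain ⟨f, f1, rfl⟩ := mem_Rs.1 h
    refine mem_Rs.2 ⟨f, ?_, ?_⟩ <;> rw [IsScalarTower.algebraMap_apply L K F]
    exacts [(o _).1 f1, o.isRd _ f1]

theorem alg_iff (o : Ov K S P) {a : P.κ} :
    IsAlgebraic (Rs L S) (o.κ a) ↔ IsAlgebraic (Rs L P) a := by
  let ρ : Rs L P →+* Rs L S :=
    (o.κ.comp (Rs L P).subtype).codRestrict _ fun b => (rs_map o).2 ⟨b, b.2, rfl⟩
  refine ⟨fun h => h.of_ringHom_of_comp_eq ρ o.κ (fun b => ?_) o.κ.injective rfl,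
    fun h => h.ringHom_of_comp_eq ρ o.κ ρ.injective rfl⟩
  obtain ⟨c, h, e⟩ := (rs_map o).1 b.2
  exact ⟨⟨c, h⟩, Subtype.ext e⟩

theorem med_iff (o : Ov K S P) {f : K} : Med L S (algebraMap K F f) ↔ Med L P f :=
  ⟨fun m => ⟨(o _).2 m.1, fun a => m.2 (o.isRd _ ((o _).2 m.1) ▸ (alg_iff o).2 a)⟩,
    fun m => ⟨(o _).1 m.1, fun a => m.2 ((alg_iff o).1 (o.isRd _ m.1 ▸ a))⟩⟩

theorem med_up [Algebra.IsAlgebraic L E] (o : Ov K S P) {f : K} (m : Med L P f) :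
    Med E S (algebraMap K F f) := med_ext ((med_iff o).2 m)

end Vale.Agent.P287D.Gp
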