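import Vale.Agent.P287D.Rm.Abh
import Vale.Agent.P287D.Fg.Gau

/-!
# P287D, Gauss places: splitting fields over a line
-/

set_option linter.unusedSectionVars false

open Set
open Polynomial hiding map_ne_zero
open scoped IntermediateField
open Vale.Agent.P297Z Vale.Agent.P287D.Hd Vale.Agent.P287D.Rm Vale.Agent.P287D.Cb

noncomputable section

namespace Vale.Agent.P287D.Gp

/-- a finite Galois extension `E / L` and the compositum `F = K E` -/
structure Spl (L K : Type) [Field L] [Algebra ℂ L] [Field K] [Algebra ℂ K] [Algebra L K] where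
  E : Type
  F : Type
  [fE : Field E]
  [cE : Algebra ℂ E]
  [fF : Field F]
  [cF : Algebra ℂ F]
  [aE : Algebra L E]
  [aK : Algebra K F]
  [aF : Algebra E F]
  [a0 : Algebra L F]
  [t1 : IsScalarTower ℂ L E]
  [t2 : IsScalarTower ℂ K F]
  [t3 : IsScalarTower ℂ E F]
  [t4 : IsScalarTower L E F]
  [t5 : IsScalarTower L K F]
  [fdE : FiniteDimensional L E]
  [gE : IsGalois L E]
  [fdF : FiniteDimensional K F]
  [gF : IsGalois K F]
  gen : IntermediateField.adjoin K (range (algebraMap E F)) = ⊤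

attribute [instance] Spl.fE Spl.cE Spl.fF Spl.cF Spl.aE Spl.aK Spl.aF Spl.a0 Spl.t1 Spl.t2 Spl.t3
  Spl.t4 Spl.t5 Spl.fdE Spl.gE Spl.fdF Spl.gF

variable {L K : Type} [Field L] [Algebra ℂ L] [Field K] [Algebra ℂ K] [Algebra L K]
  [IsScalarTower ℂ L K] {t : K} {n : ℕ}

theorem exists_spl (p : L[X]) : ∃ S : Spl L K, (p.map (algebraMap L S.E)).Splits := by
  have := charZero_of_injective_algebraMap (algebraMap ℂ L).injective
  have := charZero_of_injective_algebraMap (algebraMap ℂ K).injective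
  let F := (p.map (algebraMap L K)).SplittingField
  have s : (p.map (algebraMap L F)).Splits := by
    have := SplittingField.splits (p.map (algebraMap L K))
    rwa [Polynomial.map_map, ← IsScalarTower.algebraMap_eq] at this
  have : IsScalarTower ℂ L F := .of_algebraMap_eq fun c => by
    rw [IsScalarTower.algebraMap_apply L K F, ← IsScalarTower.algebraMap_apply ℂ L K,
      ← IsScalarTower.algebraMap_apply]
  let E := IntermediateField.adjoin L (p.rootSet F)
  have e : p.IsSplittingField L E := IntermediateField.adjoin_rootSet_isSplittingField s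
  have := IsSplittingField.finiteDimensional E p
  have := Normal.of_isSplittingField (E := E) p
  have : IsScalarTower ℂ E F := .of_algebraMap_eq fun c => rfl
  have : IsGalois L E := ⟨⟩
  have : IsGalois K F := ⟨⟩
  refine ⟨⟨E, F, eq_top_iff.2 ?_⟩, e.splits⟩
  rw [← (isSplittingField_iff_intermediateField.1
    (inferInstance : (p.map (algebraMap L K)).IsSplittingField K F)).2]
  refine IntermediateField.adjoin.mono _ _ _ fun x hx =>
    ⟨⟨x, IntermediateField.subset_adjoin _ _ ?_⟩, rfl⟩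
  rw [mem_rootSet'] at hx ⊢
  rwa [Polynomial.map_map, ← IsScalarTower.algebraMap_eq, aeval_map_algebraMap] at hx

omit [Algebra ℂ L] [Algebra ℂ K] [IsScalarTower ℂ L K] in
theorem ru_cld (h : Ru L t) {f : K} (hf : IsAlgebraic L f) : ∃ c, algebraMap L K c = f := by
  let e := ((RatFunc.algEquivOfTranscendental t h.1).trans (IntermediateField.equivOfEq h.2)).trans
    IntermediateField.topEquiv
  obtain ⟨g, rfl⟩ := e.surjective f
  by_contra c
  refine g.transcendental_of_ne_C ?_ ((isAlgebraic_algHom_iff e.toAlgHom e.injective).1 hf)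
  rintro ⟨a, rfl⟩
  exact c ⟨a, (e.commutes a).symm⟩

namespace Spl

variable (S : Spl L K)

theorem ffE (h : FF L n) : FF S.E n := ff_up h

theorem ffF (h : FF K n) : FF S.F n := ff_up h

theorem ru (h : Ru L t) : Ru S.E (algebraMap K S.F t) := by
  refine ⟨fun a => h.1 ((isAlgebraic_algebraMap_iff (algebraMap K S.F).injective).1
    (a.restrictScalars L)), eq_top_iff.2 fun x hx => ?_⟩
  replace hx : x ∈ IntermediateField.adjoin K (range (algebraMap S.E S.F)) := S.gen ▸ trivial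
  have k : ∀ p : L[X], algebraMap K S.F (aeval t p) ∈ S.E⟮algebraMap K S.F t⟯ := fun p => by
    rw [← aeval_algebraMap_apply, ← aeval_map_algebraMap S.E]
    exact IntermediateField.algebra_adjoin_le_adjoin _ _ (aeval_mem_adjoin_singleton _ _)
  induction hx using IntermediateField.adjoin_induction with
  | mem _ hx => obtain ⟨c, rfl⟩ := hx; exact IntermediateField.algebraMap_mem _ c
  | algebraMap c =>
    obtain ⟨a, b, -, rfl⟩ := h.frac c
    rw [map_div₀]
    exact div_mem (k a) (k b)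
  | add _ _ _ _ a b => exact add_mem a b
  | inv _ _ a => exact inv_mem a
  | mul _ _ _ _ a b => exact mul_mem a b

/-- the action on the constants -/
def ρ : (S.F ≃ₐ[K] S.F) →* (S.E ≃ₐ[L] S.E) :=
  IntermediateField.restrictRestrictAlgEquivMapHom L S.E K S.F

theorem ρ_spec (σ : S.F ≃ₐ[K] S.F) (c : S.E) :
    algebraMap S.E S.F (S.ρ σ c) = σ (algebraMap S.E S.F c) :=
  (σ.restrictScalars L).restrictNormal_commutes S.E c

theorem ρ_inj : Function.Injective S.ρ := fun σ τ h => by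
  ext x
  have hx : x ∈ IntermediateField.adjoin K (range (algebraMap S.E S.F)) := S.gen ▸ trivial
  induction hx using IntermediateField.adjoin_induction with
  | mem _ hx => obtain ⟨c, rfl⟩ := hx; rw [← ρ_spec, ← ρ_spec, h]
  | algebraMap c => rw [σ.commutes, τ.commutes]
  | add _ _ _ _ a b => rw [map_add, map_add, a, b]
  | inv _ _ a => rw [map_inv₀, map_inv₀, a]
  | mul _ _ _ _ a b => rw [map_mul, map_mul, a, b]

theorem ρ_surj (h : Ru L t) : Function.Surjective S.ρ := by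
  suffices e : IntermediateField.fixedField S.ρ.range = ⊥ from MonoidHom.range_eq_top.1 (by
    rw [← IntermediateField.fixingSubgroup_fixedField S.ρ.range, e,
      IntermediateField.fixingSubgroup_bot])
  refine eq_bot_iff.2 fun x hx => ?_
  obtain ⟨f, hf⟩ := (IsGalois.mem_range_algebraMap_iff_fixed (F := K) (algebraMap S.E S.F x)).2
    fun σ => by rw [← ρ_spec, (IntermediateField.mem_fixedField_iff _ _).1 hx _ ⟨σ, rfl⟩]
  obtain ⟨c, rfl⟩ := ru_cld h ((isAlgebraic_algebraMap_iff (algebraMap K S.F).injective).1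
    (hf ▸ (Algebra.IsAlgebraic.isAlgebraic (R := L) x).algebraMap))
  rw [← IsScalarTower.algebraMap_apply, IsScalarTower.algebraMap_apply L S.E S.F] at hf
  exact ⟨c, (algebraMap S.E S.F).injective hf⟩

variable {S} {P₁ : Pl S.F} {P : Pl K} {R : Pl S.E} {Q : Pl L}

theorem ov_cj' (o : Ov S.E P₁ R) (σ : S.F ≃ₐ[K] S.F) {R' : Pl S.E}
    (e : ∀ f, R'.ord (S.ρ σ f) = R.ord f) : Ov S.E (cj σ P₁) R' := fun f => by
  obtain ⟨g, rfl⟩ := (S.ρ σ).surjective f
  rw [ρ_spec, mem_cj, ← o]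
  by_cases g0 : g = 0
  · simp [g0]
  rw [← Pl.ord_nonneg_iff _ g0, ← Pl.ord_nonneg_iff _ ((map_ne_zero _).2 g0), e]

/-- a place over two given places -/
theorem cmp (h : Ru L t) (hL : FF L n) (o : Ov L P Q) (r : Ov L R Q) :
    ∃ P₁ : Pl S.F, Ov K P₁ P ∧ Ov S.E P₁ R := by
  obtain ⟨P₀, a⟩ := Pb.up_fin (K' := S.F) P
  have b : Ov L P₀ Q := (ov_trans a).1 o
  obtain ⟨R₀, c⟩ := (tv_or_ov (L := S.E) (S.ffF (h.ff hL)) P₀).resolve_left fun e =>
    b.not_trv fun f => by rw [IsScalarTower.algebraMap_apply L S.E S.F]; exact e _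
  obtain ⟨τ, e⟩ := conj_of ((ov_trans c).2 b) r
  obtain ⟨σ, rfl⟩ := S.ρ_surj h τ
  exact ⟨cj σ P₀, ov_cj σ a, ov_cj' c σ e⟩

theorem ρ_ine (o : Ov S.E P₁ R) {σ : S.F ≃ₐ[K] S.F} (h : σ ∈ ine (S.F ≃ₐ[K] S.F) P₁.toPlace) :
    S.ρ σ ∈ ine (S.E ≃ₐ[L] S.E) R.toPlace := fun f hf => by
  have h1 : Zr P₁.toPlace (algebraMap S.E S.F (S.ρ σ f - f)) := by
    rw [map_sub, ρ_spec]; exact h _ ((o f).1 hf)
  exact h1.imp (map_eq_zero _).1 (o.ord_pos_iff _).1

theorem ei_sq (o : Ov K P₁ P) (o' : Ov S.E P₁ R) (Q : Pl L) :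
    ei P₁ P * ei P Q = ei P₁ R * ei R Q := by rw [← ei_tow o, ← ei_tow o']

/-- the lemma of Abhyankar -/
theorem abh (o : Ov K P₁ P) (o' : Ov S.E P₁ R) (q : Ov L R Q) (h : ei P Q = 1) :
    ei P₁ R = 1 ∧ ei P₁ P = ei R Q ∧ ∀ τ ∈ ine (S.E ≃ₐ[L] S.E) R.toPlace,
      ∃ σ ∈ ine (S.F ≃ₐ[K] S.F) P₁.toPlace, S.ρ σ = τ := by
  have h1 := ei_sq o o' Q
  let j : ine (S.F ≃ₐ[K] S.F) P₁.toPlace → ine (S.E ≃ₐ[L] S.E) R.toPlace :=
    fun σ => ⟨S.ρ σ.1, ρ_ine o' σ.2⟩
  have ji : Function.Injective j := fun a b e => Subtype.ext (S.ρ_inj (congrArg Subtype.val e))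
  have h3 : ei P₁ P ≤ ei R Q := by
    rw [ei_card o, ei_card q]
    exact_mod_cast Nat.card_le_card_of_injective j ji
  have h4 := ei_gt o'
  have h5 := ei_gt q
  rw [h, mul_one] at h1
  have h6 : ei P₁ R = 1 := by nlinarith
  rw [h6, one_mul] at h1
  refine ⟨h6, h1, fun τ hτ => ?_⟩
  rw [ei_card o, ei_card q, Nat.cast_inj] at h1
  obtain ⟨σ, e⟩ := ((Nat.bijective_iff_injective_and_card j).2 ⟨ji, h1⟩).2 ⟨τ, hτ⟩
  exact ⟨σ.1, σ.2, congrArg Subtype.val e⟩

end Spl

/-- an element whose leading term is fixed by the inertia group -/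
theorem dvd_of_near {E : Type} [Field E] [Algebra ℂ E] [Algebra L E] [FiniteDimensional L E]
    [IsGalois L E] {R : Pl E} {Q : Pl L} (q : Ov L R Q) {z : E} (hz : z ≠ 0)
    (h : ∀ τ ∈ ine (E ≃ₐ[L] E) R.toPlace, τ z = z ∨ R.ord z < R.ord (τ z - z)) :
    ei R Q ∣ R.ord z := by
  obtain ⟨τ, hτ⟩ := (cyclic (G := E ≃ₐ[L] E) (c0 R)).exists_generator
  have u0 := R.t_ne
  have e : chi (E ≃ₐ[L] E) R.toPlace u0 (τ ^ R.ord z) = 1 := by
    rw [chi_zpow]
    refine (chi_ord τ.2 R.ord_t hz).symm.trans ?_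
    rw [← rs_one, rs_eq (quo_mem (ine_le τ.2) hz) (one_mem _), div_sub_one hz]
    rcases eq_or_ne (τ.1 • z - z) 0 with p | p
    · exact .inl (by rw [p, zero_div])
    · refine .inr ?_
      rw [Pl.ord_div _ p hz, sub_pos]
      exact (h _ τ.2).resolve_left (sub_ne_zero.1 p)
  rw [ei_card q, ← orderOf_eq_card_of_forall_mem_zpowers hτ, orderOf_dvd_iff_zpow_eq_one]
  exact chi_inj (c0 R) R.ord_t u0 (e.trans (map_one _).symm)

end Vale.Agent.P287D.Gp
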